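import Vale.Agent.P066.Lab.LSW.LetC
import Vale.Agent.P066.Lab.KunSub

/-!
# [LSW] W1, part (B): `G_c` of the standard coloured particle set
-/

set_option autoImplicit false
set_option linter.unusedSectionVars false

open Finset MvPolynomial

namespace Vale.Agent.P066.Lab.H69

open Vale.Agent.P066.Lab Vale.Agent.P066.Lab.LSW
open Vale.Agent.P066.Theta.H422 (Alt TP mem_TP mem_Alt)

noncomputable section

variable {n r : ℕ} {a : Fin n → Fin n → ℕ} {θ : Fin n → ℤ} (D : Fin r → Fin n →₀ ℕ)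

/-- the colours of the standard colouring -/
def colE (hD : ∀ j, D j ≠ 0) : Fin r ≃ Col (cW D) :=
  Equiv.ofBijective (fun j => ⟨(j : ℕ), by
    have h1 : ∃ i, D j i ≠ 0 := by
      by_contra hc
      push Not at hc
      exact hD j (Finsupp.ext hc)
    obtain ⟨i, hi⟩ := h1
    exact mem_image.mpr ⟨⟨j, i, ⟨0, Nat.pos_of_ne_zero hi⟩⟩, mem_univ _, rfl⟩⟩) (by
    constructor
    · intro i j h
      exact Fin.ext (congrArg Subtype.val h)
    · rintro ⟨i, hi⟩
      obtain ⟨s, _, hs⟩ := mem_image.mp hi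
      exact ⟨s.1, Subtype.ext hs⟩)

theorem colE_val (hD : ∀ j, D j ≠ 0) (j : Fin r) : ((colE D hD j : Col (cW D)) : ℕ) = j := rfl

/-- the block `j` is the particle set of `D j` -/
def φB (i : ℕ) (j : Fin r) (hi : i = j) : Pt (D j) ≃ BT (cW D) i :=
  Equiv.ofBijective (fun x => ⟨⟨j, x⟩, hi.symm⟩) (by
    constructor
    · intro x y h
      have h1 : (⟨j, x⟩ : SW D) = ⟨j, y⟩ := congrArg Subtype.val h
      simpa using h1
    · rintro ⟨⟨i', x⟩, h⟩
      have h1 : i' = j := Fin.ext (h.trans hi)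
      subst h1
      exact ⟨x, rfl⟩)

theorem φB_val (i : ℕ) (j : Fin r) (hi : i = j) (x : Pt (D j)) :
    ((φB D i j hi x : BT (cW D) i) : SW D) = ⟨j, x⟩ := rfl

/-- (B) -/
theorem Gc_SW (hs : SymZ (aT a (tyW D)) (tT θ (tyW D))) (hc : Zc (tT θ (tyW D)) (cW D))
    (hD : ∀ j, D j ≠ 0) {w : MvPolynomial (SW D) ℚ}
    (hw : Gc ℚ (aT a (tyW D)) (tT θ (tyW D)) (cW D) w) :
    ∃ g ∈ Submodule.span ℚ {h | ∃ u : ∀ j, MvPolynomial (Pt (D j)) ℚ,
      (∀ j, Fil ℚ (aP a (D j)) (θP θ (D j)) 1 (u j)) ∧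
      h = ∏ j, rename (Sigma.mk (β := fun i => Pt (D i)) j) (u j)},
      w - g ∈ JC ℚ (aT a (tyW D)) (tT θ (tyW D)) (cW D) := by
  obtain ⟨g, hg, hgw⟩ := (Gc_iff hs hc).mp hw
  refine ⟨g, Submodule.span_mono ?_ hg, hgw⟩
  rintro h ⟨v, hv, rfl⟩
  have key : ∀ (j : Fin r) (i : ℕ) (hi : i = j) (x : MvPolynomial (BT (cW D) i) ℚ),
      Fil ℚ (aB (aT a (tyW D)) (cW D) i) (tB (tT θ (tyW D)) (cW D) i) 1 x →
      Fil ℚ (aP a (D j)) (θP θ (D j)) 1 (rename (φB D i j hi).symm x) ∧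
        rename Subtype.val x =
          rename (Sigma.mk (β := fun i => Pt (D i)) j) (rename (φB D i j hi).symm x) := by
    intro j i hi x hx
    constructor
    · have h1 : x = rename (φB D i j hi) (rename (φB D i j hi).symm x) := by
        rw [rename_rename]
        simp
      rw [h1] at hx
      exact (Fil_equiv ℚ (φB D i j hi) (a := aB (aT a (tyW D)) (cW D) i) (a' := aP a (D j))
        (θ := tB (tT θ (tyW D)) (cW D) i) (θ' := θP θ (D j)) (fun _ _ => rfl) (fun _ => rfl)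
        1 _).mp hx
    · rw [rename_rename]
      have h1 : (Subtype.val : BT (cW D) i → SW D) =
          (Sigma.mk (β := fun i => Pt (D i)) j) ∘ (φB D i j hi).symm := by
        funext s
        have h2 := φB_val D i j hi ((φB D i j hi).symm s)
        rw [Equiv.apply_symm_apply] at h2
        exact h2
      rw [← h1]
  refine ⟨fun j => rename (φB D (colE D hD j) j rfl).symm (v (colE D hD j)), fun j => ?_, ?_⟩
  · exact (key j _ rfl _ (hv (colE D hD j))).1
  · rw [← (colE D hD).prod_comp]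
    exact prod_congr rfl fun j _ => (key j _ rfl _ (hv (colE D hD j))).2

end

end Vale.Agent.P066.Lab.H69
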