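import Vale.Agent.P066.Lab.H69.W1A
import Vale.Agent.P066.Lab.H69.W1B
import Vale.Agent.P066.Lab.LB1

/-!
# [LSW] W1: words span
-/

set_option autoImplicit false
set_option linter.unusedSectionVars false

open Finset MvPolynomial

namespace Vale.Agent.P066.Lab.H69

open Vale.Agent.P066.Lab Vale.Agent.P066.Lab.LSW
open Vale.Agent.P066.Theta.H422 (Alt TP mem_TP mem_Alt)

noncomputable section

variable {n : ℕ} {a : Fin n → Fin n → ℕ} {θ : Fin n → ℤ}

/-- one term of the expansion -/
theorem term_mem (hs : SymD a θ) (L : Letters a θ) {d : Fin n →₀ ℕ} {c : Pt d → ℕ}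
    (hc : Zc (θP θ d) c) {w : MvPolynomial (Pt d) ℚ} (hw : Gc ℚ (aP a d) (θP θ d) c w)
    {α : ℕ →₀ ℕ} (hα : ∀ i ∈ α.support, i ∈ univ.image c) {N : ℤ}
    (hN : 2 * (α.degree : ℤ) + nb c ≤ N) :
    antis Sigma.fst (KC ℚ (aP a d) c * (w * um ℚ c α)) ∈ WS L d N := by
  obtain ⟨r, D, e, α', w', he, hD, hwt, hα', hdeg, hr, hz, hw', heq⟩ :=
    transport (ty := (Sigma.fst : Pt d → Fin n)) hs hc hw hα
  obtain ⟨g, hg, hgw⟩ := Gc_SW D (symZ_of_symD (tyW D) hs) hz hD hw'
  have h0 : KC ℚ (aP a d) c * (w * um ℚ c α) =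
      rename e (KC ℚ (aT a (tyW D)) (cW D) * (g * um ℚ (cW D) α')) +
        rename e (KC ℚ (aT a (tyW D)) (cW D) * ((w' - g) * um ℚ (cW D) α')) := by
    rw [← map_add]
    refine heq.trans ?_
    congr 1
    ring
  rw [h0, map_add]
  refine add_mem ?_ ?_
  · clear hgw h0 heq
    induction hg using Submodule.span_induction with
    | mem x hx =>
      obtain ⟨u, hu, rfl⟩ := hx
      refine antis_PD_mem L D hD hwt he u hu α' hα' ?_
      rw [hdeg, hr]
      exact hN
    | zero =>
      rw [zero_mul, mul_zero, map_zero, map_zero]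
      exact zero_mem _
    | add x y _ _ hx hy =>
      rw [add_mul, mul_add, map_add, map_add]
      exact add_mem hx hy
    | smul t x _ hx =>
      rw [smul_mul_assoc, mul_smul_comm, map_smul, map_smul]
      exact Submodule.smul_mem _ _ hx
  · refine Submodule.mem_sup_right ?_
    rw [Submodule.restrictScalars_mem]
    exact antis_J0 ((rename_mem_J0 he _).2 (KC_mul_JC hz (Ideal.mul_mem_right _ _ hgw)))

theorem w1_aux (hs : SymD a θ) (L : Letters a θ) (d : Fin n →₀ ℕ) (hd : Theta.wt θ d = 0) :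
    ∀ (M : ℕ) (N : ℤ), N < M → ∀ f ∈ Alt ℚ (Sigma.fst : Pt d → Fin n),
      Fil ℚ (aP a d) (θP θ d) N f → f ∈ WS L d N := by
  intro M
  induction M with
  | zero =>
    intro N hN f _ hF
    refine Submodule.mem_sup_right ?_
    rw [Submodule.restrictScalars_mem]
    have hz : Zc (θP θ d) (fun _ => 0) := by
      intro i
      rcases eq_or_ne i 0 with rfl | hi
      · have : blk (fun _ : Pt d => 0) 0 = univ := by ext s; simp
        rw [this, wS_Pt, hd]
      · have : blk (fun _ : Pt d => 0) i = ∅ := by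
          ext s
          simp [Ne.symm hi]
        rw [this]
        simp [wS]
    have h1 := hF (fun _ => 0) hz 0 (by
      have h2 : CC (aP a d) (fun _ => 0) = 0 := by simp [CC]
      have h3 : 0 ≤ nb (fun _ : Pt d => 0) := by
        unfold nb
        positivity
      rw [h2, map_zero]
      push_cast at hN ⊢
      linarith)
    rw [coeff_zero_Tc] at h1
    have h2 := KC_mul_JC hz h1
    have h3 : KC ℚ (aP a d) (fun _ => 0) = 1 := by simp [KC, QP]
    rwa [h3, one_mul] at h2
  | succ M ih =>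
    intro N hN f hf hF
    obtain ⟨R, T, n0, hT, _, hrem⟩ :=
      Fil_expand (symZ_of_symD (Sigma.fst : Pt d → Fin n) hs) hF
    have h1 := ih (N - 1) (by push_cast at hN; omega) _
      (antis_mem_Alt (Sigma.fst : Pt d → Fin n) _)
      (antis_fil (a := a) (θ := θ) (ty := (Sigma.fst : Pt d → Fin n)) hrem)
    have h2 : antis (Sigma.fst : Pt d → Fin n) f ∈ WS L d N := by
      have h3 : f = (f - ∑ c ∈ R, KC ℚ (aP a d) c * eval (uk ℚ c) (T c)) +
          ∑ c ∈ R, KC ℚ (aP a d) c * eval (uk ℚ c) (T c) := by ring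
      rw [h3, map_add]
      refine add_mem (WS_mono L d (by omega) h1) ?_
      rw [map_sum]
      refine sum_mem fun c hc => ?_
      rw [eval_uk_eq, mul_sum, map_sum]
      refine sum_mem fun α hα => ?_
      have h4 : α.degree = n0 c := by
        by_contra hne
        exact (mem_support_iff.mp hα) ((hT c hc).hom.coeff_eq_zero hne)
      refine term_mem hs L (hT c hc).zc ((hT c hc).gc α) ((hT c hc).sup α hα) ?_
      rw [h4, (hT c hc).lev]
    rw [eq_of_mem_Alt hf]
    exact Submodule.smul_mem _ _ h2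

/-- **W1**: words span. -/
theorem w1 : W1 := by
  intro n a θ hs L d hd N f hf hF
  exact w1_aux hs L d hd (N.toNat + 1) N (by
    have := Int.self_le_toNat N
    push_cast
    omega) f hf hF

end

end Vale.Agent.P066.Lab.H69
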