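import Vale.Agent.P066.Lab.LSW.Block

/-!
# [LSW] W1, part (A): transport of a coloured particle set to the standard one
-/

set_option autoImplicit false
set_option linter.unusedSectionVars false

open Finset MvPolynomial

namespace Vale.Agent.P066.Lab.H69

open Vale.Agent.P066.Lab Vale.Agent.P066.Lab.LSW
open Vale.Agent.P066.Theta.H422 (Alt TP mem_TP mem_Alt)

noncomputable section

variable {n : ℕ}

/-! ### the class of a set of typed particles -/

section Class

variable {S : Type} [Fintype S] [DecidableEq S] (ty : S → Fin n)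

/-- the class of a set of particles -/
def clS (X : Finset S) : Fin n →₀ ℕ :=
  Finsupp.equivFunOnFinite.symm fun i => (X.filter fun s => ty s = i).card

theorem clS_apply (X : Finset S) (i : Fin n) :
    clS ty X i = (X.filter fun s => ty s = i).card := rfl

theorem wS_eq_wt (θ : Fin n → ℤ) (X : Finset S) : wS (tT θ ty) X = Theta.wt θ (clS ty X) := by
  unfold wS Theta.wt
  rw [← sum_fiberwise_of_maps_to (s := X) (t := univ) (g := ty) fun s _ => mem_univ _]
  refine sum_congr rfl fun i _ => ?_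
  rw [clS_apply, sum_congr rfl (g := fun _ => θ i) fun s hs => by rw [tT, (mem_filter.mp hs).2],
    sum_const, nsmul_eq_mul]

theorem ar_eq_arD (a : Fin n → Fin n → ℕ) (X Y : Finset S) :
    ar (aT a ty) X Y = (arD a (clS ty X) (clS ty Y) : ℤ) := by
  unfold ar arD
  push_cast
  rw [← sum_fiberwise_of_maps_to (s := X) (t := univ) (g := ty) fun s _ => mem_univ _]
  refine sum_congr rfl fun i _ => ?_
  have h : ∀ s ∈ X.filter (fun s => ty s = i), (∑ t ∈ Y, (aT a ty s t : ℤ)) =
      ∑ j, (a i j : ℤ) * (clS ty Y j : ℤ) := by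
    intro s hs
    rw [← sum_fiberwise_of_maps_to (s := Y) (t := univ) (g := ty) fun s _ => mem_univ _]
    refine sum_congr rfl fun j _ => ?_
    rw [clS_apply, sum_congr rfl (g := fun _ => (a i j : ℤ)) fun t ht => by
      rw [aT, (mem_filter.mp hs).2, (mem_filter.mp ht).2], sum_const, nsmul_eq_mul, mul_comm]
  rw [sum_congr rfl h, sum_const, nsmul_eq_mul, mul_sum]
  refine sum_congr rfl fun j _ => ?_
  rw [clS_apply ty X]
  ring

theorem symZ_of_symD {a : Fin n → Fin n → ℕ} {θ : Fin n → ℤ} (h : SymD a θ) :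
    SymZ (aT a ty) (tT θ ty) := by
  intro X Y _ hX hY
  rw [wS_eq_wt] at hX hY
  rw [ar_eq_arD, ar_eq_arD, h _ _ hX hY]

end Class

/-! ### bijections from cardinalities of fibres -/

theorem exists_equiv_of_card {S S' K : Type} [Fintype S] [Fintype S'] [DecidableEq K]
    (f : S → K) (g : S' → K) (h : ∀ t, (univ.filter fun s => f s = t).card
      = (univ.filter fun s => g s = t).card) :
    ∃ e : S ≃ S', ∀ s, g (e s) = f s := by
  classical
  have e : ∀ t, Nonempty ({s // f s = t} ≃ {s // g s = t}) := by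
    intro t
    rw [← Fintype.card_eq, Fintype.card_subtype, Fintype.card_subtype]
    exact h t
  exact ⟨Equiv.ofFiberEquiv (f := f) (g := g) fun t => (e t).some, fun s =>
    Equiv.ofFiberEquiv_map _ s⟩

variable {S : Type} [Fintype S] [DecidableEq S] {ty : S → Fin n}

/-- a coloured typed particle set is isomorphic to a standard one -/
theorem exists_std (ty : S → Fin n) (c : S → ℕ) :
    ∃ (D : Fin (univ.image c).card → Fin n →₀ ℕ) (e : SW D ≃ S),
      TB (tyW D) ty e ∧ (∀ j, D j ≠ 0) ∧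
      ∀ s, c (e s) = (univ.image c).orderEmbOfFin rfl s.1 := by
  classical
  set emb := (univ.image c).orderEmbOfFin rfl with hemb
  have hmem : ∀ s, ∃ j, emb j = c s := by
    intro s
    have h1 : (c s) ∈ Set.range emb := by
      rw [hemb, range_orderEmbOfFin]
      exact mem_coe.mpr (mem_image_of_mem c (mem_univ s))
    exact h1
  have hmem' : ∀ j, ∃ s, c s = emb j := by
    intro j
    obtain ⟨s, _, hs⟩ := mem_image.mp (orderEmbOfFin_mem (univ.image c) rfl j)
    exact ⟨s, hs⟩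
  choose c' hc' using hmem
  let D : Fin (univ.image c).card → Fin n →₀ ℕ := fun j => clS ty (blk c (emb j))
  obtain ⟨e, he⟩ := exists_equiv_of_card (S := SW D) (S' := S)
    (K := Fin (univ.image c).card × Fin n) (fun s => (s.1, s.2.1)) (fun s => (c' s, ty s)) (by
      rintro ⟨j, i⟩
      have h1 : (univ.filter fun s : SW D => (s.1, s.2.1) = (j, i)) =
          univ.map ⟨fun x : Fin (D j i) => (⟨j, i, x⟩ : SW D), fun x y h => by
            simpa using h⟩ := by
        ext ⟨j', i', x⟩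
        simp only [mem_filter, mem_univ, true_and, mem_map,
          Prod.mk.injEq]
        constructor
        · rintro ⟨rfl, rfl⟩
          exact ⟨x, rfl⟩
        · rintro ⟨y, hy⟩
          rw [Sigma.mk.injEq] at hy
          obtain ⟨rfl, hy⟩ := hy
          rw [heq_eq_eq, Sigma.mk.injEq] at hy
          exact ⟨rfl, hy.1.symm⟩
      rw [h1, card_map, card_univ, Fintype.card_fin]
      change (clS ty (blk c (emb j))) i = _
      rw [clS_apply]
      congr 1
      ext s
      simp only [mem_filter, mem_univ, true_and, mem_blk, Prod.mk.injEq]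
      rw [← hc' s]
      exact ⟨fun h => ⟨emb.injective h.1, h.2⟩, fun h => ⟨by rw [h.1], h.2⟩⟩)
  refine ⟨D, e, ?_, ?_, ?_⟩
  · intro s
    exact (Prod.ext_iff.mp (he s)).2
  · intro j h0
    obtain ⟨s, hs⟩ := hmem' j
    have h1 : (D j) (ty s) = 0 := by rw [h0]; rfl
    have h2 : (clS ty (blk c (emb j))) (ty s) = 0 := h1
    rw [clS_apply, card_eq_zero, filter_eq_empty_iff] at h2
    exact h2 (mem_blk.mpr hs) rfl
  · intro s
    have h1 : c' (e s) = s.1 := (Prod.ext_iff.mp (he s)).1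
    rw [← hc' (e s), h1]

theorem exists_std' (ty : S → Fin n) (c : S → ℕ) :
    ∃ (r : ℕ) (emb : Fin r ↪o ℕ) (D : Fin r → Fin n →₀ ℕ) (e : SW D ≃ S),
      (r : ℤ) = nb c ∧ Set.range emb = ↑(univ.image c) ∧ TB (tyW D) ty e ∧ (∀ j, D j ≠ 0) ∧
      ∀ s, c (e s) = emb s.1 := by
  obtain ⟨D, e, he, hD, hce⟩ := exists_std ty c
  exact ⟨_, _, D, e, rfl, range_orderEmbOfFin _ _, he, hD, hce⟩

/-! ### transport of the building blocks -/

theorem uk_recolour {σ : ℕ → ℕ} (hσ : Function.Injective σ) (c : S → ℕ) (i : ℕ) :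
    uk ℚ (σ ∘ c) (σ i) = uk ℚ c i := by
  unfold uk
  rw [blk_recolour hσ]

theorem um_recolour {σ : ℕ → ℕ} (hσ : Function.Injective σ) (c : S → ℕ) (α : ℕ →₀ ℕ) :
    um ℚ (σ ∘ c) (α.mapDomain σ) = um ℚ c α := by
  unfold um
  rw [Finsupp.prod_mapDomain_index_inj hσ]
  exact Finsupp.prod_congr fun i _ => by rw [uk_recolour hσ]

theorem um_equiv {S' : Type} [Fintype S'] [DecidableEq S'] (e : S' ≃ S) (c : S → ℕ)
    (α : ℕ →₀ ℕ) : rename e (um ℚ (c ∘ e) α) = um ℚ c α := by
  unfold um Finsupp.prod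
  rw [map_prod]
  exact prod_congr rfl fun i _ => by rw [map_pow, uk_equiv]

theorem Ref_recolour_right {σ : ℕ → ℕ} (hσ : Function.Injective σ) (m c : S → ℕ) :
    Ref m (σ ∘ c) ↔ Ref m c :=
  ⟨fun h s t hst => hσ (h s t hst), fun h s t hst => congrArg σ (h s t hst)⟩

theorem Gc_recolour {a : S → S → ℕ} {θ : S → ℤ} (hs : SymZ a θ) {σ : ℕ → ℕ}
    (hσ : Function.Injective σ) {c : S → ℕ} (hc : Zc θ c) (f : MvPolynomial S ℚ) :
    Gc ℚ a θ (σ ∘ c) f ↔ Gc ℚ a θ c f := by
  unfold Gc FilR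
  rw [nb_recolour hσ, CC_recolour hs hσ c hc]
  refine forall_congr' fun m => ?_
  rw [Ref_recolour_right hσ]

variable {a : Fin n → Fin n → ℕ} {θ : Fin n → ℤ}

theorem blk_cW {r : ℕ} (D : Fin r → Fin n →₀ ℕ) (j : Fin r) :
    blk (cW D) (j : ℕ) = univ.map ⟨fun x : Pt (D j) => (⟨j, x⟩ : SW D), fun x y h => by
      simpa using h⟩ := by
  ext ⟨i, x⟩
  rw [mem_blk, mem_map]
  constructor
  · intro h
    have h1 : i = j := Fin.ext h
    subst h1
    exact ⟨x, mem_univ _, rfl⟩
  · rintro ⟨y, -, hy⟩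
    have h1 : j = i := congrArg Sigma.fst hy
    rw [h1]
    rfl

theorem wS_blk_cW {r : ℕ} (D : Fin r → Fin n →₀ ℕ) (j : Fin r) :
    wS (tT θ (tyW D)) (blk (cW D) (j : ℕ)) = Theta.wt θ (D j) := by
  unfold wS
  rw [blk_cW, sum_map, Fintype.sum_sigma]
  unfold Theta.wt
  refine sum_congr rfl fun i _ => ?_
  change ∑ _x : Fin (D j i), θ i = _
  rw [sum_const, card_univ, Fintype.card_fin, nsmul_eq_mul]

/-- (A) transport of one term of the expansion to a standard particle set -/
theorem transport (hs : SymD a θ) {c : S → ℕ} (hc : Zc (tT θ ty) c) {w : MvPolynomial S ℚ}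
    (hw : Gc ℚ (aT a ty) (tT θ ty) c w) {α : ℕ →₀ ℕ} (hα : ∀ i ∈ α.support, i ∈ univ.image c) :
    ∃ (r : ℕ) (D : Fin r → Fin n →₀ ℕ) (e : SW D ≃ S) (α' : ℕ →₀ ℕ)
      (w' : MvPolynomial (SW D) ℚ),
      TB (tyW D) ty e ∧ (∀ j, D j ≠ 0) ∧ (∀ j, Theta.wt θ (D j) = 0) ∧
      (∀ i ∈ α'.support, i < r) ∧ α'.degree = α.degree ∧ (r : ℤ) = nb c ∧
      Zc (tT θ (tyW D)) (cW D) ∧ Gc ℚ (aT a (tyW D)) (tT θ (tyW D)) (cW D) w' ∧
      KC ℚ (aT a ty) c * (w * um ℚ c α) =
        rename e (KC ℚ (aT a (tyW D)) (cW D) * (w' * um ℚ (cW D) α')) := by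
  classical
  obtain ⟨r, emb, D, e, hr, hemb, he, hD, hce⟩ := exists_std' ty c
  let σ : ℕ → ℕ := fun i => if h : i < r then emb ⟨i, h⟩ else (univ.image c).sup id + 1 + i
  have hσ1 : ∀ j : Fin r, σ j = emb j := fun j => by simp [σ]
  have hle : ∀ j : Fin r, emb j ≤ (univ.image c).sup id := fun j =>
    Finset.le_sup (f := id) (by
      rw [← mem_coe, ← hemb]
      exact ⟨j, rfl⟩)
  have hσ : Function.Injective σ := by
    intro i j hij
    by_cases hi : i < r <;> by_cases hj : j < r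
    · have h1 : σ i = emb ⟨i, hi⟩ := hσ1 ⟨i, hi⟩
      have h2 : σ j = emb ⟨j, hj⟩ := hσ1 ⟨j, hj⟩
      rw [h1, h2] at hij
      exact Fin.mk.inj_iff.mp (emb.injective hij)
    · have h1 : σ i = emb ⟨i, hi⟩ := hσ1 ⟨i, hi⟩
      have h2 : σ j = (univ.image c).sup id + 1 + j := by simp [σ, hj]
      have := hle ⟨i, hi⟩
      omega
    · have h1 : σ i = (univ.image c).sup id + 1 + i := by simp [σ, hi]
      have h2 : σ j = emb ⟨j, hj⟩ := hσ1 ⟨j, hj⟩
      have := hle ⟨j, hj⟩
      omega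
    · have h1 : σ i = (univ.image c).sup id + 1 + i := by simp [σ, hi]
      have h2 : σ j = (univ.image c).sup id + 1 + j := by simp [σ, hj]
      omega
  have hcσ : c ∘ e = σ ∘ cW D := by
    funext s
    rw [Function.comp_apply, hce, Function.comp_apply]
    exact (hσ1 s.1).symm
  have hsym := symZ_of_symD (ty := tyW D) hs
  have hz1 : Zc (tT θ (tyW D)) (c ∘ e) := (Zc_equiv e (he.tT_eq θ) c).mpr hc
  have hz2 : Zc (tT θ (tyW D)) (cW D) := by
    rw [hcσ, Zc_recolour hσ] at hz1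
    exact hz1
  have hαr : ∀ i ∈ α.support, i ∈ Set.range σ := by
    intro i hi
    have h1 : i ∈ Set.range emb := by
      rw [hemb]
      exact mem_coe.mpr (hα i hi)
    obtain ⟨j, rfl⟩ := h1
    exact ⟨j, hσ1 j⟩
  have hmap : (α.comapDomain σ hσ.injOn).mapDomain σ = α :=
    Finsupp.mapDomain_comapDomain σ hσ α fun i hi => hαr i hi
  refine ⟨r, D, e, α.comapDomain σ hσ.injOn, rename e.symm w, he, hD, ?_, ?_, ?_, ?_, hz2, ?_, ?_⟩
  · intro j
    rw [← wS_blk_cW D j]
    exact hz2 j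
  · intro i hi
    rw [Finsupp.comapDomain_support, mem_preimage] at hi
    by_contra hlt
    have h1 : σ i = (univ.image c).sup id + 1 + i := by simp [σ, hlt]
    have h2 : σ i ≤ (univ.image c).sup id := Finset.le_sup (f := id) (hα _ hi)
    omega
  · rw [← Finsupp.degree_mapDomain (f := σ), hmap]
  · exact hr
  · have h1 : rename e (rename e.symm w) = w := by
      rw [rename_rename]
      simp
    rw [← Gc_recolour hsym hσ hz2, ← hcσ, ← Gc_equiv ℚ e (he.aT_eq a) (he.tT_eq θ) c, h1]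
    exact hw
  · have h1 : rename e (rename e.symm w) = w := by
      rw [rename_rename]
      simp
    have h2 : KC ℚ (aT a (tyW D)) (cW D) = KC ℚ (aT a (tyW D)) (c ∘ e) := by
      unfold KC
      congr 1
      ext p
      simp only [mem_filter, mem_univ, true_and, Function.comp_apply, hce]
      rw [OrderEmbedding.lt_iff_lt]
      rfl
    have h3 : um ℚ (cW D) (α.comapDomain σ hσ.injOn) = um ℚ (c ∘ e) α := by
      rw [hcσ, ← um_recolour hσ (cW D), hmap]
    rw [map_mul, map_mul, h1, h2, h3, um_equiv, KC_equiv ℚ e (he.aT_eq a) c]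

end

end Vale.Agent.P066.Lab.H69
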